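import Vale.Agent.P284.H419.AnS
import Vale.Agent.P284.H10.S4e

/-!
# P284 (helper15), MF(II), (D1), part (A1): the fibres of a map `ℂ^n → ℂ^q`
-/

open Set Filter Topology Module Metric
open scoped ContDiff

noncomputable section

namespace Vale.Agent.P284.H15.Fib

open Vale.Agent.P272.K Vale.Agent.P284.H10 Vale.Agent.P284.H419

section ocov

variable {n : ℕ} {E : Type} [NormedAddCommGroup E] [NormedSpace ℂ E]

/-- `S` is covered by countably many analytic images in `U` of open subsets of `ℂ^n` -/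
def OCov (n : ℕ) (U S : Set E) : Prop :=
  ∃ (γ : ℕ → Cm n → E) (V : ℕ → Set (Cm n)), (∀ i, IsOpen (V i)) ∧
    (∀ i, ∀ s ∈ V i, ContDiffAt ℂ ω (γ i) s ∧ γ i s ∈ U) ∧ S ⊆ ⋃ i, γ i '' V i

theorem OCov.mono {U S S' : Set E} (h : OCov n U S') (hS : S ⊆ S') : OCov n U S := by
  obtain ⟨γ, V, h1, h2, h3⟩ := h
  exact ⟨γ, V, h1, h2, hS.trans h3⟩

theorem OCov.iUnion_nat {U : Set E} {S : ℕ → Set E} (h : ∀ i, OCov n U (S i)) :
    OCov n U (⋃ i, S i) := by
  choose γ V h1 h2 h3 using h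
  refine ⟨fun m => γ m.unpair.1 m.unpair.2, fun m => V m.unpair.1 m.unpair.2,
    fun m => h1 _ _, fun m x hx => h2 _ _ x hx, ?_⟩
  refine iUnion_subset fun i x hx => ?_
  obtain ⟨j, hj⟩ := mem_iUnion.1 (h3 i hx)
  refine mem_iUnion.2 ⟨Nat.pair i j, ?_⟩
  simpa using hj

theorem OCov.empty {U : Set E} : OCov n U (∅ : Set E) :=
  ⟨fun _ _ => 0, fun _ => ∅, fun _ => isOpen_empty, fun _ _ h => h.elim, empty_subset _⟩

theorem OCov.biUnion {X : Type} {U : Set E} {t : Set X} (ht : t.Countable) {S : X → Set E}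
    (h : ∀ x ∈ t, OCov n U (S x)) : OCov n U (⋃ x ∈ t, S x) := by
  rcases t.eq_empty_or_nonempty with rfl | hne
  · simpa using OCov.empty
  · obtain ⟨f, hf⟩ := ht.exists_eq_range hne
    have h1 : (⋃ x ∈ t, S x) = ⋃ i, S (f i) := by
      rw [hf, biUnion_range]
    rw [h1]
    exact OCov.iUnion_nat fun i => h _ (hf ▸ mem_range_self i)

theorem OCov.locally [SecondCountableTopology E] {U S : Set E}
    (h : ∀ x ∈ S, ∃ V ∈ 𝓝 x, OCov n U (S ∩ V)) : OCov n U S := by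
  choose! V hV hc using h
  obtain ⟨t, ht, htc, hcov⟩ := TopologicalSpace.countable_cover_nhdsWithin
    (s := S) (f := V) (fun x hx => mem_nhdsWithin_of_mem_nhds (hV x hx))
  have h1 : S ⊆ ⋃ x ∈ t, S ∩ V x := by
    intro y hy
    obtain ⟨x, hx, hyx⟩ := mem_iUnion₂.1 (hcov hy)
    exact mem_iUnion₂.2 ⟨x, hx, hy, hyx⟩
  exact (OCov.biUnion htc fun x hx => hc x (ht hx)).mono h1

/-- zero sets of holomorphic functions -/
theorem ocov_zero [FiniteDimensional ℂ E] (hE : finrank ℂ E = n + 1) {g : E → ℂ} {U : Set E}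
    (hU : IsOpen U) (hg : DifferentiableOn ℂ g U) (h0 : ∀ x ∈ U, ¬ ∀ᶠ y in 𝓝 x, g y = 0) :
    OCov n U {x ∈ U | g x = 0} := by
  have hE' : ProperSpace E := FiniteDimensional.proper ℂ E
  have han : ∀ x ∈ U, AnalyticAt ℂ g x := fun x hx =>
    Vale.Agent.P268.analyticOnNhd_of_differentiableOn hU hg x hx
  set Z : ℕ → Set E := fun l => {x ∈ U |
    (∀ m : Fin l → E, iteratedFDeriv ℂ l g x (fun i => m i) = 0) ∧
    ∃ m : Fin (l + 1) → E, iteratedFDeriv ℂ (l + 1) g x (fun i => m i) ≠ 0} with hZ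
  have hsub : {x ∈ U | g x = 0} ⊆ ⋃ l, Z l := by
    rintro x ⟨hx, hx0⟩
    by_cases hall : ∀ l, ∀ m : Fin l → E, iteratedFDeriv ℂ l g x (fun i => m i) = 0
    · exfalso
      apply h0 x hx
      obtain ⟨q, ρ, hq⟩ := han x hx
      filter_upwards [Metric.eball_mem_nhds x hq.r_pos] with y hy
      have h1 := hq.hasSum_sub hy
      have h2 : ∀ j, (q j fun _ => y - x) = 0 := by
        intro j
        have h3 := hq.factorial_smul (y - x) j
        rw [hall j (fun _ => y - x)] at h3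
        simpa [Nat.factorial_ne_zero] using h3
      simp only [h2] at h1
      exact h1.unique hasSum_zero
    · push Not at hall
      classical
      have h1 : Nat.find hall ≠ 0 := by
        intro h2
        obtain ⟨m, hm⟩ := Nat.find_spec hall
        apply hm
        clear hm
        revert m
        rw [h2]
        intro m
        simpa using hx0
      obtain ⟨l, hl⟩ := Nat.exists_eq_succ_of_ne_zero h1
      refine mem_iUnion.2 ⟨l, hx, ?_, ?_⟩
      · have h3 : l < Nat.find hall := by omega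
        have h4 := Nat.find_min hall h3
        push Not at h4
        exact h4
      · have h2 := Nat.find_spec hall
        rw [hl] at h2
        exact h2
  refine OCov.mono (OCov.iUnion_nat fun l => ?_) hsub
  refine OCov.locally fun x hx => ?_
  obtain ⟨hxU, hx1, m, hm⟩ := hx
  obtain ⟨K', γ, V, h1, h2, h3, h4, h5⟩ := strat hE (ContinuousLinearMap.id ℂ E)
    (han x hxU).contDiffAt hx1 hm (hU.mem_nhds hxU)
  refine ⟨_, h5, ?_⟩
  let a : Cm n ≃L[ℂ] K' := ContinuousLinearEquiv.ofFinrankEq (by simp [h1])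
  refine ⟨fun _ s => γ (a s), fun _ => a ⁻¹' V, fun _ => h2.preimage a.continuous,
    fun _ s hs => ⟨?_, h4 _ hs⟩, ?_⟩
  · exact (h3 (a s) hs).comp s a.contDiff.contDiffAt
  · rintro y ⟨⟨-, hy1, -⟩, hy2⟩
    obtain ⟨s, hs, hsy⟩ := hy2 hy1
    refine mem_iUnion.2 ⟨0, a.symm s, ?_, ?_⟩
    · show a (a.symm s) ∈ V
      rwa [a.apply_symm_apply]
    · show γ (a (a.symm s)) = y
      rwa [a.apply_symm_apply]

end ocov

/-- the fibre through a point where the rank is `≥ r` -/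
theorem fib_rank {k : ℕ} {E W : Type} [NormedAddCommGroup E] [NormedSpace ℂ E]
    [FiniteDimensional ℂ E] [NormedAddCommGroup W] [NormedSpace ℂ W] [FiniteDimensional ℂ W]
    {F : E → W} {x₀ : E} (hF : ContDiffAt ℂ ω F x₀)
    (hk : finrank ℂ E ≤ k + finrank ℂ (LinearMap.range (fderiv ℂ F x₀ : E →ₗ[ℂ] W))) (t : W) :
    ∃ V ∈ 𝓝 x₀, Cov k {x ∈ V | F x = t} := by
  obtain ⟨R, K, A, Φ, ψ, hR, hdim, hΦ, hψ, hl, hr, hA, hA'⟩ := straighten hF
  rw [finrank_prod, hR] at hdim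
  have hK : finrank ℂ K ≤ k := by omega
  have hev : ∀ᶠ x in 𝓝 x₀, ψ (Φ x) = x ∧ ContDiffAt ℂ ω ψ (Φ x) :=
    hl.and (hΦ.continuousAt (hψ.eventually (by simp)))
  refine ⟨_, hev, ?_⟩
  have h3 : {x ∈ {x | ψ (Φ x) = x ∧ ContDiffAt ℂ ω ψ (Φ x)} | F x = t} ⊆
      (fun s : K => ψ (A t, s)) '' {s | ContDiffAt ℂ ω ψ (A t, s)} := by
    rintro x ⟨⟨hx1, hx2⟩, hx3⟩
    have h4 : Φ x = (A t, (Φ x).2) := by
      rw [← hx3, ← hA]
    refine ⟨(Φ x).2, ?_, ?_⟩
    · show ContDiffAt ℂ ω ψ (A t, (Φ x).2)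
      rw [← h4]; exact hx2
    · show ψ (A t, (Φ x).2) = x
      rw [← h4]; exact hx1
  refine Cov.mono (Cov.of_image hK ?_) h3
  intro s hs
  have hs' : ContDiffAt ℂ ω ψ (A t, s) := hs
  have h5 : DifferentiableAt ℂ (fun s : K => (A t, s)) s :=
    (differentiableAt_const _).prodMk differentiableAt_id
  exact (hs'.differentiableAt (by simp)).comp s h5

/-- fibres over the set where the rank is large -/
theorem fib_cov {m k q : ℕ} {G : Cm m → Cm q} {U : Set (Cm m)}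
    (hG : ∀ x ∈ U, ContDiffAt ℂ ω G x) {t : Cm q}
    (hk : ∀ x ∈ U, G x = t →
      m ≤ k + finrank ℂ (LinearMap.range (fderiv ℂ G x : Cm m →ₗ[ℂ] Cm q))) :
    Cov k {x ∈ U | G x = t} := by
  have h2 : Cov k (id '' {x ∈ U | G x = t}) := by
    refine Cov.locally fun x hx => ?_
    obtain ⟨hxU, hxt⟩ := hx
    obtain ⟨V, hV, h3⟩ := fib_rank (k := k) (hG x hxU) (by simpa using hk x hxU hxt) t
    refine ⟨V, hV, h3.mono ?_⟩
    rintro _ ⟨y, ⟨⟨-, hy⟩, hyV⟩, rfl⟩
    exact ⟨hyV, hy⟩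
  simpa using h2

theorem fibStmt : FibStmt := by
  intro n q f B hq hB hc hf hex
  have hex' := hex
  obtain ⟨z₀, hz₀, hs⟩ := hex
  have hn : q ≤ n := N_le_n hs
  obtain ⟨m, rfl⟩ : ∃ m, n = m + 1 := ⟨n - 1, by omega⟩
  obtain ⟨A, hA⟩ := exists_mnr hs
  have hd := mnr_diff hB hf A
  have hfan : ∀ x ∈ B, ContDiffAt ℂ ω f x := fun x hx =>
    (Vale.Agent.P268.analyticOnNhd_of_differentiableOn hB hf x hx).contDiffAt
  obtain ⟨γ, V, h1, h2, h3⟩ := ocov_zero (n := m) (by simp) hB hd (by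
    intro x hx h0
    have ha : AnalyticOnNhd ℂ (mnr f A) B :=
      Vale.Agent.P268.analyticOnNhd_of_differentiableOn hB hd
    have h1 := ha.eqOn_of_preconnected_of_eventuallyEq analyticOnNhd_const
      hc.isPreconnected hx h0
    have h2 := h1 hz₀
    rw [hA] at h2
    exact one_ne_zero h2)
  -- the data of the small set
  let mm : ℕ → ℕ := fun k => match k with | 0 => m + 1 | (k + 1) => m
  let GG : ∀ k, Cm (mm k) → Cm q := fun k => match k with | 0 => f | (k + 1) => f ∘ γ k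
  let UU : ∀ k, Set (Cm (mm k)) := fun k => match k with | 0 => B | (k + 1) => V k
  refine ⟨⋃ k, GG k '' {x ∈ UU k | finrank ℂ (LinearMap.range
      (fderiv ℂ (GG k) x : Cm (mm k) →ₗ[ℂ] Cm q)) + 2 ≤ q}, ⟨mm, GG, UU, ?_, subset_rfl⟩, ?_⟩
  · intro k
    match k with
    | 0 => exact ⟨hB, fun x hx => (hfan x hx).analyticAt⟩
    | (k + 1) =>
      refine ⟨h1 k, fun x hx => ?_⟩
      obtain ⟨h4, h5⟩ := h2 k x hx
      exact ((hfan _ h5).comp x h4).analyticAt
  · intro t ht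
    rw [mem_iUnion, not_exists] at ht
    have hrk : ∀ z ∈ B, f z = t →
        q ≤ finrank ℂ (LinearMap.range (fderiv ℂ f z : Cm (m + 1) →ₗ[ℂ] Cm q)) + 1 := by
      intro z hz hzt
      by_contra hcon
      exact ht 0 ⟨z, ⟨hz, by show finrank ℂ (LinearMap.range
        (fderiv ℂ f z : Cm (m + 1) →ₗ[ℂ] Cm q)) + 2 ≤ q; omega⟩, hzt⟩
    refine ⟨?_, hrk⟩
    have ha : Cov (m + 1 - q) {z ∈ {z ∈ B | Function.Surjective (fderiv ℂ f z)} | f z = t} := by
      refine fib_cov (fun x hx => hfan x hx.1) fun x hx hxt => ?_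
      have h4 : LinearMap.range (fderiv ℂ f x : Cm (m + 1) →ₗ[ℂ] Cm q) = ⊤ :=
        LinearMap.range_eq_top.2 hx.2
      rw [h4, finrank_top]
      simp
      omega
    have hb : Cov (m + 1 - q) (⋃ k, γ k '' {x ∈ V k | (f ∘ γ k) x = t}) := by
      refine Cov.iUnion_nat fun k => ?_
      refine Cov.image ?_ fun x hx => ((h2 k x hx.1).1).differentiableAt (by simp)
      refine fib_cov (fun x hx => (hfan _ (h2 k x hx).2).comp x (h2 k x hx).1) fun x hx hxt => ?_
      have h5 : q ≤ finrank ℂ (LinearMap.range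
          (fderiv ℂ (f ∘ γ k) x : Cm m →ₗ[ℂ] Cm q)) + 1 := by
        by_contra hcon
        exact ht (k + 1) ⟨x, ⟨hx, by show finrank ℂ (LinearMap.range
          (fderiv ℂ (f ∘ γ k) x : Cm m →ₗ[ℂ] Cm q)) + 2 ≤ q; omega⟩, hxt⟩
      omega
    refine (ha.union hb).mono ?_
    rintro z ⟨hz, hzt⟩
    by_cases hsu : Function.Surjective (fderiv ℂ f z)
    · exact Or.inl ⟨⟨hz, hsu⟩, hzt⟩
    · right
      have h6 : z ∈ {x ∈ B | mnr f A x = 0} := by
        refine ⟨hz, ?_⟩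
        by_contra h7
        exact hsu (surj_of_mnr h7)
      obtain ⟨k, s, hs1, hs2⟩ := mem_iUnion.1 (h3 h6)
      exact mem_iUnion.2 ⟨k, s, ⟨hs1, by rw [Function.comp_apply, hs2]; exact hzt⟩, hs2⟩

end Vale.Agent.P284.H15.Fib
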