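import Vale.Agent.P284.H279.TPS
import Vale.Agent.P284.H213.KL.SK1
import Vale.Agent.P299.H956.D1.RJac
import Vale.Agent.P272.K.N.MaxP
import Vale.Agent.P272.K.Inv.Hess

/-!
# P284 (helper15), block TP3: properties of the potential of a periodic divisor

The potential is bounded above, `H ≥ 0`, and the null directions of `H` leave the divisor invariant
(Liouville's theorem on complex lines).
-/

open scoped ContDiff Topology ComplexOrder ComplexConjugate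
open Filter Set Metric

set_option linter.all false

noncomputable section

namespace Vale.Agent.P284.H15.TP3

open Vale.Agent.P272.K Vale.Agent.P272.K.C2 Vale.Agent.P284.H213.KL Vale.Agent.P284.H279

/-! ### Liouville's theorem for functions with logarithmic poles on the line -/

/-- At a local maximum the Levi form is nonpositive. -/
lemma lev_nonpos_of_max {n : ℕ} {f : Cm n → ℝ} {z : Cm n} (hf : ContDiffAt ℝ 2 f z)
    (hmax : IsLocalMax f z) (β : Cm n) : lev f z β ≤ 0 := by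
  have h1 := N.neg_cHess_posSemidef hf hmax
  have h2 := h1.re_dotProduct_nonneg (star β)
  have h3 : (∑ j, ∑ k, cHess f z j k * β j * conj (β k)) =
      - (star (star β) ⬝ᵥ ((-cHess f z).mulVec (star β))) := by
    simp only [dotProduct, Matrix.mulVec, star_star, Pi.star_apply, Matrix.neg_apply,
      Finset.mul_sum, ← Finset.sum_neg_distrib]
    refine Finset.sum_congr rfl fun j _ => Finset.sum_congr rfl fun k _ => ?_
    simp only [RCLike.star_def]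
    ring
  unfold lev
  rw [h3, Complex.neg_re]
  have h4 : 0 ≤ (star (star β) ⬝ᵥ ((-cHess f z).mulVec (star β))).re := h2
  linarith


lemma lev_log_zero {n : ℕ} {F : Cm n → ℂ} {z : Cm n} (h : AnalyticAt ℂ F z) (h0 : F z ≠ 0)
    (β : Cm n) : lev (fun y => Real.log (‖F y‖ ^ 2)) z β = 0 := by
  unfold lev
  have h1 : ContDiffAt ℂ ω F z := h.contDiffAt
  have h2 : cHess (fun y => Real.log (‖F y‖ ^ 2)) z = 0 :=
    Vale.Agent.P272.K.cHess_log_norm_sq h1 h0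
  rw [h2]; simp

lemma contDiffAt_log {n : ℕ} {F : Cm n → ℂ} {z : Cm n} (h : AnalyticAt ℂ F z) (h0 : F z ≠ 0) :
    ContDiffAt ℝ ∞ (fun y => Real.log (‖F y‖ ^ 2)) z :=
  (contDiffAt_normSq h).log (by positivity)

variable {A : Set (Cm 1)} {u : Cm 1 → ℝ} {C₀ : ℝ}

/-- comparison on the exterior of a disc -/
lemma ext_disc (hA : IsClosed A) (hb : ∀ s ∉ A, u s ≤ C₀) (hsm : ∀ s ∉ A, ContDiffAt ℝ 2 u s)
    (hlev : ∀ s ∉ A, ∀ β, 0 ≤ lev u s β)
    (hinf : ∀ a ∈ A, ∀ M : ℝ, ∀ᶠ s in 𝓝 a, s ∉ A → u s < M)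
    {c : Cm 1} {ρ : ℝ} (hρ : 0 < ρ) {B : ℝ} (hB : ∀ s, ‖s - c‖ = ρ → s ∉ A → u s ≤ B)
    {s : Cm 1} (hs : s ∉ A) (hsρ : ρ ≤ ‖s - c‖) {ε δ : ℝ} (hε : 0 < ε) (hδ : 0 < δ) :
    u s ≤ B + δ + ε * Real.log (‖(s 0 - c 0) / (ρ : ℂ)‖ ^ 2) := by
  have hnorm : ∀ x : Cm 1, ‖x‖ = ‖x 0‖ := by
    intro x
    refine le_antisymm ?_ (norm_le_pi_norm x 0)
    rw [pi_norm_le_iff_of_nonneg (norm_nonneg _)]
    intro i
    rw [Subsingleton.elim i 0]
  have hρC : (ρ : ℂ) ≠ 0 := by exact_mod_cast hρ.ne'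
  set F : Cm 1 → ℂ := fun x => (x 0 - c 0) / (ρ : ℂ) with hF
  set G : Cm 1 → ℂ := fun x => (ρ : ℂ) / (x 0 - c 0) with hG
  have hFn : ∀ x : Cm 1, ‖F x‖ = ‖x - c‖ / ρ := by
    intro x
    rw [hnorm (x - c), hF]
    simp [abs_of_pos hρ]
  have hGn : ∀ x : Cm 1, ‖G x‖ = ρ / ‖x - c‖ := by
    intro x
    rw [hnorm (x - c), hG]
    simp [abs_of_pos hρ]
  have hFan : ∀ x, AnalyticAt ℂ F x := by
    intro x
    have h1 : AnalyticAt ℂ (fun x : Cm 1 => x 0) x :=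
      (ContinuousLinearMap.proj (R := ℂ) (φ := fun _ : Fin 1 => ℂ) 0).analyticAt x
    exact (h1.sub analyticAt_const).div analyticAt_const hρC
  have hGan : ∀ x : Cm 1, x 0 - c 0 ≠ 0 → AnalyticAt ℂ G x := by
    intro x hx
    have h1 : AnalyticAt ℂ (fun x : Cm 1 => x 0) x :=
      (ContinuousLinearMap.proj (R := ℂ) (φ := fun _ : Fin 1 => ℂ) 0).analyticAt x
    exact analyticAt_const.div (h1.sub analyticAt_const) hx
  have hx0 : ∀ x : Cm 1, ρ ≤ ‖x - c‖ → x 0 - c 0 ≠ 0 := by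
    intro x hx h0
    rw [hnorm (x - c)] at hx
    simp only [Pi.sub_apply, h0, norm_zero] at hx
    linarith
  have hFne : ∀ x : Cm 1, ρ ≤ ‖x - c‖ → F x ≠ 0 := by
    intro x hx
    exact div_ne_zero (hx0 x hx) hρC
  set w : Cm 1 → ℝ := fun x => (u x + (-ε) * Real.log (‖F x‖ ^ 2)) + δ * ‖G x‖ ^ 2 with hw
  have hF1 : ∀ x : Cm 1, ρ ≤ ‖x - c‖ → 0 ≤ Real.log (‖F x‖ ^ 2) := by
    intro x hx
    apply Real.log_nonneg
    have : 1 ≤ ‖F x‖ := by rw [hFn, le_div_iff₀ hρ]; linarith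
    nlinarith
  have hG1 : ∀ x : Cm 1, ρ ≤ ‖x - c‖ → ‖G x‖ ^ 2 ≤ 1 := by
    intro x hx
    have h1 : ‖G x‖ ≤ 1 := by
      rw [hGn]; exact div_le_one_of_le₀ hx (norm_nonneg _)
    have h0 : 0 ≤ ‖G x‖ := norm_nonneg _
    nlinarith
  have hwC : ∀ x, x ∉ A → ρ ≤ ‖x - c‖ → ContDiffAt ℝ 2 w x := by
    intro x hxA hx
    have h1 := hsm x hxA
    have h2 : ContDiffAt ℝ 2 (fun y => Real.log (‖F y‖ ^ 2)) x :=
      (contDiffAt_log (hFan x) (hFne x hx)).of_le (by norm_cast)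
    have h3 : ContDiffAt ℝ 2 (fun y => ‖G y‖ ^ 2) x :=
      (contDiffAt_normSq (hGan x (hx0 x hx))).of_le (by norm_cast)
    exact (h1.add (contDiffAt_const.mul h2)).add (contDiffAt_const.mul h3)
  -- the compact set where `w` is large
  set Q : Set (Cm 1) := {x | ρ ≤ ‖x - c‖ ∧ x ∉ A ∧ w s ≤ w x} with hQ
  have hwle : ∀ x, x ∉ A → ρ ≤ ‖x - c‖ → w x ≤ u x + δ := by
    intro x hxA hx
    have h1 := hF1 x hx
    have h2 := hG1 x hx
    have h3 : 0 ≤ ε * Real.log (‖F x‖ ^ 2) := mul_nonneg hε.le h1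
    have h4 : δ * ‖G x‖ ^ 2 ≤ δ * 1 := mul_le_mul_of_nonneg_left h2 hδ.le
    simp only [hw]; linarith
  have hQc : IsClosed Q := by
    rw [← isOpen_compl_iff, isOpen_iff_mem_nhds]
    intro x hx
    by_cases h1 : ρ ≤ ‖x - c‖
    · by_cases h2 : x ∈ A
      · filter_upwards [hinf x h2 (w s - δ)] with y hy hyQ
        have h3 := hy hyQ.2.1
        have h4 := hwle y hyQ.2.1 hyQ.1
        have h5 := hyQ.2.2
        linarith
      · have h3 : w x < w s := by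
          by_contra hcon
          exact hx ⟨h1, h2, not_lt.1 hcon⟩
        have h4 : ContinuousAt w x := (hwC x h2 h1).continuousAt
        filter_upwards [h4.eventually (gt_mem_nhds h3)] with y hy hyQ
        exact absurd hyQ.2.2 (not_le.2 hy)
    · have h2 : ContinuousAt (fun y : Cm 1 => ‖y - c‖) x := by fun_prop
      filter_upwards [h2.eventually (gt_mem_nhds (not_le.1 h1))] with y hy hyQ
      exact absurd hyQ.1 (not_le.2 hy)
  have hQb : Bornology.IsBounded Q := by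
    rw [isBounded_iff_forall_norm_le]
    refine ⟨ρ * Real.exp ((C₀ + δ - w s) / ε) + ρ + ‖c‖, fun x hx => ?_⟩
    have h1 := hF1 x hx.1
    have h2 := hG1 x hx.1
    have h3 := hb x hx.2.1
    have h4 : δ * ‖G x‖ ^ 2 ≤ δ * 1 := mul_le_mul_of_nonneg_left h2 hδ.le
    have h5 : ε * Real.log (‖F x‖ ^ 2) ≤ C₀ + δ - w s := by
      have := hx.2.2
      simp only [hw] at this ⊢
      linarith
    have h6 : Real.log (‖F x‖ ^ 2) ≤ (C₀ + δ - w s) / ε := by
      rw [le_div_iff₀ hε]; linarith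
    have h7 : 0 < ‖F x‖ := norm_pos_iff.2 (hFne x hx.1)
    have h8 : ‖F x‖ ^ 2 ≤ Real.exp ((C₀ + δ - w s) / ε) := by
      rw [← Real.log_le_iff_le_exp (by positivity)]; exact h6
    have h9 : ‖F x‖ ≤ 1 + ‖F x‖ ^ 2 := by nlinarith
    have h10 : ‖x - c‖ = ρ * ‖F x‖ := by rw [hFn]; field_simp
    have h11 : ‖x‖ ≤ ‖x - c‖ + ‖c‖ := by
      have := norm_add_le (x - c) c
      simpa using this
    have h12 : ρ * ‖F x‖ ≤ ρ * (1 + Real.exp ((C₀ + δ - w s) / ε)) :=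
      mul_le_mul_of_nonneg_left (by linarith) hρ.le
    nlinarith
  have hQk : IsCompact Q := Metric.isCompact_of_isClosed_isBounded hQc hQb
  have hQne : Q.Nonempty := ⟨s, hsρ, hs, le_refl _⟩
  obtain ⟨x₁, hx₁, hmax⟩ := hQk.exists_isMaxOn hQne
    (fun x hx => (hwC x hx.2.1 hx.1).continuousAt.continuousWithinAt)
  have hall : ∀ y, y ∉ A → ρ ≤ ‖y - c‖ → w y ≤ w x₁ := by
    intro y hyA hy
    by_cases h1 : w s ≤ w y
    · exact hmax (show y ∈ Q from ⟨hy, hyA, h1⟩)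
    · exact (le_of_lt (not_le.1 h1)).trans hx₁.2.2
  have hrho : ‖x₁ - c‖ = ρ := by
    by_contra hne
    have hlt : ρ < ‖x₁ - c‖ := lt_of_le_of_ne hx₁.1 (Ne.symm hne)
    have hloc : IsLocalMax w x₁ := by
      have h2 : ContinuousAt (fun y : Cm 1 => ‖y - c‖) x₁ := by fun_prop
      filter_upwards [h2.eventually (lt_mem_nhds hlt), hA.isOpen_compl.mem_nhds hx₁.2.1] with y hy hyA
      exact hall y hyA hy.le
    have h1 := lev_nonpos_of_max (hwC x₁ hx₁.2.1 hx₁.1) hloc (fun _ => 1)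
    have hu2 := hsm x₁ hx₁.2.1
    have hF2 : ContDiffAt ℝ 2 (fun y => Real.log (‖F y‖ ^ 2)) x₁ :=
      (contDiffAt_log (hFan x₁) (hFne x₁ hx₁.1)).of_le (by norm_cast)
    have hGA := hGan x₁ (hx0 x₁ hx₁.1)
    have hG2 : ContDiffAt ℝ 2 (fun y => ‖G y‖ ^ 2) x₁ :=
      (contDiffAt_normSq hGA).of_le (by norm_cast)
    rw [hw, lev_add (hu2.add (contDiffAt_const.mul hF2)) (contDiffAt_const.mul hG2),
      lev_add hu2 (contDiffAt_const.mul hF2), lev_const_mul hF2, lev_const_mul hG2,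
      lev_log_zero (hFan x₁) (hFne x₁ hx₁.1), lev_normSq hGA] at h1
    have h2 := hlev x₁ hx₁.2.1 (fun _ => 1)
    have hne1 := hx0 x₁ hx₁.1
    have h3 : fderiv ℂ G x₁ (fun _ => 1) ≠ 0 := by
      have hd : HasFDerivAt (fun x : Cm 1 => x 0 - c 0)
          (ContinuousLinearMap.proj (R := ℂ) (φ := fun _ : Fin 1 => ℂ) 0) x₁ :=
        ((ContinuousLinearMap.proj (R := ℂ) (φ := fun _ : Fin 1 => ℂ) 0).hasFDerivAt).sub_const _
      have hd2 : HasDerivAt (fun t : ℂ => (ρ : ℂ) / t) (-(ρ : ℂ) / (x₁ 0 - c 0) ^ 2) (x₁ 0 - c 0) := by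
        have h5 := (hasDerivAt_inv hne1).const_mul (ρ : ℂ)
        have h6 : (fun t : ℂ => (ρ : ℂ) / t) = fun t => (ρ : ℂ) * t⁻¹ := by
          funext t; rw [div_eq_mul_inv]
        rw [h6]
        have h7 : -(ρ : ℂ) / (x₁ 0 - c 0) ^ 2 = (ρ : ℂ) * (-((x₁ 0 - c 0) ^ 2)⁻¹) := by
          rw [div_eq_mul_inv]; ring
        rw [h7]
        exact h5
      have hd3 := hd2.comp_hasFDerivAt x₁ hd
      have hd4 : fderiv ℂ G x₁ = (-(ρ : ℂ) / (x₁ 0 - c 0) ^ 2) •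
          (ContinuousLinearMap.proj (R := ℂ) (φ := fun _ : Fin 1 => ℂ) 0) := hd3.fderiv
      rw [hd4]
      simp only [smul_apply, ContinuousLinearMap.proj_apply, smul_eq_mul, mul_one]
      exact div_ne_zero (neg_ne_zero.2 hρC) (pow_ne_zero _ hne1)
    have h4 : 0 < ‖fderiv ℂ G x₁ (fun _ => 1)‖ := norm_pos_iff.2 h3
    have h5 : 0 < δ * ‖fderiv ℂ G x₁ (fun _ => 1)‖ ^ 2 := by positivity
    linarith
  have h1 : w x₁ ≤ B + δ := (hwle x₁ hx₁.2.1 hx₁.1).trans (by linarith [hB x₁ hrho hx₁.2.1])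
  have h2 : w s ≤ B + δ := (hall s hs hsρ).trans h1
  have h3 : 0 ≤ δ * ‖G s‖ ^ 2 := by positivity
  simp only [hw] at h2
  show u s ≤ B + δ + ε * Real.log (‖F s‖ ^ 2)
  linarith

/-- **Liouville**: a subharmonic function on the line, bounded above, is constant. -/
theorem line_const (hA : IsClosed A) (hb : ∀ s ∉ A, u s ≤ C₀) (hsm : ∀ s ∉ A, ContDiffAt ℝ 2 u s)
    (hlev : ∀ s ∉ A, ∀ β, 0 ≤ lev u s β)
    (hinf : ∀ a ∈ A, ∀ M : ℝ, ∀ᶠ s in 𝓝 a, s ∉ A → u s < M) {s c : Cm 1} (hs : s ∉ A)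
    (hc : c ∉ A) : u s ≤ u c := by
  by_contra hcon
  push Not at hcon
  set η : ℝ := (u s - u c) / 3 with hη
  have hη0 : 0 < η := by rw [hη]; linarith
  have hcont : ContinuousAt u c := (hsm c hc).continuousAt
  obtain ⟨r, hr0, hr⟩ := Metric.eventually_nhds_iff.1
    (hcont.eventually (gt_mem_nhds (show u c < u c + η by linarith)))
  set ρ : ℝ := r / 2 with hρ
  have hρ0 : 0 < ρ := by positivity
  have hsρ : ρ ≤ ‖s - c‖ := by
    by_contra h1
    push Not at h1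
    have h2 := hr (y := s) (by rw [dist_eq_norm]; linarith)
    linarith
  set L : ℝ := Real.log (‖(s 0 - c 0) / (ρ : ℂ)‖ ^ 2) with hL
  have h1 := ext_disc hA hb hsm hlev hinf hρ0 (B := u c + η)
    (fun x hx _ => (hr (y := x) (by rw [dist_eq_norm]; linarith)).le) hs hsρ
    (ε := η / (2 * (|L| + 1))) (δ := η / 2) (by positivity) (by positivity)
  have h2 : η / (2 * (|L| + 1)) * L ≤ η / 2 := by
    have h3 : L ≤ |L| + 1 := (le_abs_self L).trans (by linarith)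
    have h4 : 0 < |L| + 1 := by positivity
    calc η / (2 * (|L| + 1)) * L ≤ η / (2 * (|L| + 1)) * (|L| + 1) :=
          mul_le_mul_of_nonneg_left h3 (by positivity)
      _ = η / 2 := by field_simp
  rw [← hL] at h1
  have h5 : u s = u c + 3 * η := by rw [hη]; ring
  linarith

/-! ### the potential near the divisor -/

section pot

variable {q : ℕ} {Λ : AddSubgroup (Cm q)} {E : (Cm q → ℂ) → Cm q → Prop} {ψ : Cm q → ℝ}
  {H : Matrix (Fin q) (Fin q) ℂ}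

/-- the local structure of the potential -/
def LocP (E : (Cm q → ℂ) → Cm q → Prop) (ψ : Cm q → ℝ) (H : Matrix (Fin q) (Fin q) ℂ) : Prop :=
  ∀ θ x, E θ x → ∃ g : Cm q → ℝ, (∀ᶠ z in 𝓝 x, ContDiffAt ℝ ∞ g z ∧ cHess g z = -H) ∧
    ∀ᶠ z in 𝓝 x, θ z ≠ 0 → ψ z = Real.log (‖θ z‖ ^ 2) + g z

lemma mem_zs (hE : PerDiv Λ E) {θ : Cm q → ℂ} {x : Cm q} (h : E θ x) : x ∈ zs E ↔ θ x = 0 := by
  constructor
  · rintro ⟨θ', h', h0⟩
    obtain ⟨u, hu, hu0, hev⟩ := hE.unit θ θ' x h h'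
    rw [hev.self_of_nhds, h0, mul_zero]
  · intro h0
    exact ⟨θ, h, h0⟩

lemma zs_closed (hE : PerDiv Λ E) : IsClosed (zs E) := by
  rw [← isOpen_compl_iff, isOpen_iff_mem_nhds]
  intro x hx
  obtain ⟨θ, hθ⟩ := hE.ex x
  have h1 : θ x ≠ 0 := fun h => hx ((mem_zs hE hθ).2 h)
  have h2 : ContinuousAt θ x := (hE.ana θ x hθ).continuousAt
  filter_upwards [hE.opn θ x hθ, h2.eventually_ne h1] with z hz hz0 hz1
  exact hz0 ((mem_zs hE hz).1 hz1)

lemma zs_per (hE : PerDiv Λ E) {x l : Cm q} (hl : l ∈ Λ) (hx : x ∈ zs E) : x + l ∈ zs E := by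
  obtain ⟨θ, hθ, h0⟩ := hx
  exact ⟨_, hE.per θ x hθ l hl, by simp [h0]⟩

lemma exists_off (hE : PerDiv Λ E) (x : Cm q) : ∃ z, z ∉ zs E := by
  obtain ⟨θ, hθ⟩ := hE.ex x
  have h1 : ∃ᶠ z in 𝓝 x, ¬ θ z = 0 := Filter.not_eventually.1 (hE.ne θ x hθ)
  obtain ⟨z, hz, hz2⟩ := (h1.and_eventually (hE.opn θ x hθ)).exists
  exact ⟨z, fun h => hz ((mem_zs hE hz2).1 h)⟩

lemma psi_smooth (hE : PerDiv Λ E) (hL : LocP E ψ H) {z : Cm q} (hz : z ∉ zs E) :
    ContDiffAt ℝ ∞ ψ z ∧ cHess ψ z = -H := by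
  obtain ⟨θ, hθ⟩ := hE.ex z
  obtain ⟨g, hg, hψ⟩ := hL θ z hθ
  have h0 : θ z ≠ 0 := fun h => hz ((mem_zs hE hθ).2 h)
  have hA := hE.ana θ z hθ
  have hev : ψ =ᶠ[𝓝 z] fun y => Real.log (‖θ y‖ ^ 2) + g y := by
    filter_upwards [hψ, hA.continuousAt.eventually_ne h0] with y h1 h2
    exact h1 h2
  obtain ⟨hg1, hg2⟩ := hg.self_of_nhds
  have hl := contDiffAt_log hA h0
  refine ⟨(hl.add hg1).congr_of_eventuallyEq hev, ?_⟩
  have h1 : ContDiffAt ℂ ω θ z := hA.contDiffAt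
  have h2 : cHess (fun y => Real.log (‖θ y‖ ^ 2)) z = 0 :=
    Vale.Agent.P272.K.cHess_log_norm_sq h1 h0
  rw [Vale.Agent.P272.K.cHess_congr hev,
    Vale.Agent.P272.K.cHess_add (hl.of_le (by norm_cast)) (hg1.of_le (by norm_cast)), h2, hg2,
    zero_add]

lemma psi_inf (hE : PerDiv Λ E) (hL : LocP E ψ H) {a : Cm q} (ha : a ∈ zs E) (M : ℝ) :
    ∀ᶠ z in 𝓝 a, z ∉ zs E → ψ z < M := by
  obtain ⟨θ, hθ⟩ := hE.ex a
  obtain ⟨g, hg, hψ⟩ := hL θ a hθ
  have h0 : θ a = 0 := (mem_zs hE hθ).1 ha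
  have hA := hE.ana θ a hθ
  have hgc : ContinuousAt g a := hg.self_of_nhds.1.continuousAt
  have h1 : ∀ᶠ z in 𝓝 a, g z < g a + 1 := hgc.eventually (gt_mem_nhds (by linarith))
  have h2 : ∀ᶠ z in 𝓝 a, ‖θ z‖ ^ 2 < Real.exp (M - g a - 1) := by
    have h3 : ContinuousAt (fun z => ‖θ z‖ ^ 2) a := hA.continuousAt.norm.pow 2
    refine h3.eventually (gt_mem_nhds ?_)
    show ‖θ a‖ ^ 2 < Real.exp (M - g a - 1)
    rw [h0]; simp [Real.exp_pos]
  filter_upwards [h1, h2, hψ, hE.opn θ a hθ] with z a1 a2 a3 a4 hz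
  have hz0 : θ z ≠ 0 := fun h => hz ((mem_zs hE a4).2 h)
  have hz1 : 0 < ‖θ z‖ := norm_pos_iff.2 hz0
  rw [a3 hz0]
  have h4 : Real.log (‖θ z‖ ^ 2) < M - g a - 1 := (Real.log_lt_iff_lt_exp (by positivity)).2 a2
  linarith

lemma psi_loc (hE : PerDiv Λ E) (hL : LocP E ψ H) (a : Cm q) :
    ∃ C : ℝ, ∀ᶠ z in 𝓝 a, z ∉ zs E → ψ z ≤ C := by
  obtain ⟨θ, hθ⟩ := hE.ex a
  obtain ⟨g, hg, hψ⟩ := hL θ a hθ
  have hA := hE.ana θ a hθ
  have hgc : ContinuousAt g a := hg.self_of_nhds.1.continuousAt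
  have h1 : ∀ᶠ z in 𝓝 a, g z < g a + 1 := hgc.eventually (gt_mem_nhds (by linarith))
  have h2 : ∀ᶠ z in 𝓝 a, ‖θ z‖ ^ 2 < ‖θ a‖ ^ 2 + 1 := by
    have h3 : ContinuousAt (fun z => ‖θ z‖ ^ 2) a := hA.continuousAt.norm.pow 2
    exact h3.eventually (gt_mem_nhds (by linarith))
  refine ⟨(‖θ a‖ ^ 2 + 1) + (g a + 1), ?_⟩
  filter_upwards [h1, h2, hψ, hE.opn θ a hθ] with z a1 a2 a3 a4 hz
  have hz0 : θ z ≠ 0 := fun h => hz ((mem_zs hE a4).2 h)
  rw [a3 hz0]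
  have h4 : Real.log (‖θ z‖ ^ 2) ≤ ‖θ z‖ ^ 2 := Real.log_le_self (by positivity)
  linarith

lemma psi_bdd (hE : PerDiv Λ E) (hL : LocP E ψ H) (hc : Coco Λ)
    (hper : ∀ l ∈ Λ, ∀ z, ψ (z + l) = ψ z) : ∃ C₀ : ℝ, ∀ z ∉ zs E, ψ z ≤ C₀ := by
  obtain ⟨R, hR⟩ := hc
  choose C hC using psi_loc hE hL
  have hK : IsCompact (closedBall (0 : Cm q) R) := isCompact_closedBall 0 R
  obtain ⟨t, ht, hcov⟩ := hK.elim_nhds_subcover (fun x => {z | z ∉ zs E → ψ z ≤ C x})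
    (fun x _ => hC x)
  refine ⟨∑ x ∈ t, |C x|, fun z hz => ?_⟩
  obtain ⟨l, hl, hlz⟩ := hR z
  have h1 : z - l ∈ closedBall (0 : Cm q) R := by simpa using hlz
  have h1' := hcov h1
  simp only [mem_iUnion] at h1'
  obtain ⟨x, hx, hzx⟩ := h1'
  have h2 : z - l ∉ zs E := by
    intro h
    apply hz
    have := zs_per hE hl h
    simpa using this
  have h3 : ψ (z - l) ≤ C x := hzx h2
  have h4 : ψ (z - l) = ψ z := by
    have := hper l hl (z - l)
    simpa using this.symm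
  calc ψ z = ψ (z - l) := h4.symm
    _ ≤ C x := h3
    _ ≤ |C x| := le_abs_self _
    _ ≤ _ := Finset.single_le_sum (f := fun x => |C x|) (fun _ _ => abs_nonneg _) hx

/-! ### complex lines -/

/-- the Hermitian form of `H` -/
def S (H : Matrix (Fin q) (Fin q) ℂ) (v : Cm q) : ℂ :=
  ∑ j, ∑ k, H j k * v j * (starRingEnd ℂ) (v k)

/-- the parametrised line -/
def ln (z v : Cm q) (s : Cm 1) : Cm q := z + s 0 • v

lemma ln_an (z v : Cm q) (s : Cm 1) : ContDiffAt ℂ ω (ln z v) s := by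
  unfold ln
  have h1 : ContDiffAt ℂ ω (fun s : Cm 1 => s 0) s :=
    (ContinuousLinearMap.proj (R := ℂ) (φ := fun _ : Fin 1 => ℂ) 0).contDiff.contDiffAt
  exact contDiffAt_const.add (h1.smul contDiffAt_const)

lemma ln_fd (z v : Cm q) (s w : Cm 1) : fderiv ℂ (ln z v) s w = w 0 • v := by
  have hd : HasFDerivAt (fun s : Cm 1 => s 0)
      (ContinuousLinearMap.proj (R := ℂ) (φ := fun _ : Fin 1 => ℂ) 0) s :=
    (ContinuousLinearMap.proj (R := ℂ) (φ := fun _ : Fin 1 => ℂ) 0).hasFDerivAt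
  have h1 := (hd.smul_const v).const_add z
  have h2 : fderiv ℂ (ln z v) s = _ := h1.fderiv
  rw [h2]
  simp

lemma lev_ln {f : Cm q → ℝ} {z v : Cm q} {s : Cm 1} (hf : ContDiffAt ℝ 2 f (ln z v s))
    (hH : cHess f (ln z v s) = -H) (β : Cm 1) :
    lev (fun s => f (ln z v s)) s β = -(S H v).re * ‖β 0‖ ^ 2 := by
  unfold lev
  rw [Vale.Agent.P299.H956.cHess_compR hf (ln_an z v s), hH]
  have hj : ∀ p i, Vale.Agent.P299.H956.jmR (ln z v) s p i = v p := by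
    intro p i
    rw [Vale.Agent.P299.H956.jmR_apply ((ln_an z v s).differentiableAt (by simp)), ln_fd,
      Subsingleton.elim i 0]
    simp
  have h1 : ∀ j k : Fin 1, ((Vale.Agent.P299.H956.jmR (ln z v) s).transpose * -H *
      (Vale.Agent.P299.H956.jmR (ln z v) s).map (starRingEnd ℂ)) j k = -(S H v) := by
    intro j k
    simp only [Matrix.mul_apply, Matrix.transpose_apply, Matrix.map_apply, hj, Matrix.neg_apply, S,
      Finset.sum_mul]
    rw [Finset.sum_comm, ← Finset.sum_neg_distrib]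
    refine Finset.sum_congr rfl fun a _ => ?_
    rw [← Finset.sum_neg_distrib]
    refine Finset.sum_congr rfl fun b _ => ?_
    ring
  simp only [h1, Finset.univ_unique, Fin.default_eq_zero, Finset.sum_singleton, Fin.isValue]
  have h2 : -(S H v) * β 0 * (starRingEnd ℂ) (β 0) = -(S H v) * ((‖β 0‖ ^ 2 : ℝ) : ℂ) := by
    rw [mul_assoc, Complex.mul_conj, Complex.normSq_eq_norm_sq]
  rw [h2, Complex.mul_re, Complex.neg_re, Complex.ofReal_re, Complex.ofReal_im]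
  ring

/-- a line in a nonpositive direction does not meet the divisor -/
lemma line_main (hE : PerDiv Λ E) (hL : LocP E ψ H) {C₀ : ℝ} (hb : ∀ z ∉ zs E, ψ z ≤ C₀)
    {z v : Cm q} (hz : z ∉ zs E) (hS : (S H v).re ≤ 0) :
    (S H v).re = 0 ∧ ∀ s : ℂ, z + s • v ∉ zs E := by
  have hcont : Continuous (ln z v) := by unfold ln; fun_prop
  set A : Set (Cm 1) := ln z v ⁻¹' zs E with hA
  have hAc : IsClosed A := (zs_closed hE).preimage hcont
  set u : Cm 1 → ℝ := fun s => ψ (ln z v s) with hu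
  have hz0 : ln z v 0 = z := by simp [ln]
  have h0A : (0 : Cm 1) ∉ A := by
    show ln z v 0 ∉ zs E
    rwa [hz0]
  have hsm : ∀ s ∉ A, ContDiffAt ℝ 2 u s := by
    intro s hs
    have h1 : ContDiffAt ℝ 2 ψ (ln z v s) := (psi_smooth hE hL hs).1.of_le (by norm_cast)
    have h2 : ContDiffAt ℝ 2 (ln z v) s := ((ln_an z v s).restrict_scalars ℝ).of_le le_top
    exact h1.comp s h2
  have hlev : ∀ s ∉ A, ∀ β, lev u s β = -(S H v).re * ‖β 0‖ ^ 2 := by
    intro s hs β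
    obtain ⟨h1, h2⟩ := psi_smooth hE hL hs
    exact lev_ln (h1.of_le (by norm_cast)) h2 β
  have hlev0 : ∀ s ∉ A, ∀ β, 0 ≤ lev u s β := by
    intro s hs β
    rw [hlev s hs β]
    exact mul_nonneg (by linarith) (by positivity)
  have hinf : ∀ a ∈ A, ∀ M : ℝ, ∀ᶠ s in 𝓝 a, s ∉ A → u s < M := by
    intro a ha M
    exact hcont.continuousAt.eventually (psi_inf hE hL ha M)
  have hbA : ∀ s ∉ A, u s ≤ C₀ := fun s hs => hb _ hs
  have hconst : ∀ s ∉ A, u s = u 0 := fun s hs =>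
    le_antisymm (line_const hAc hbA hsm hlev0 hinf hs h0A)
      (line_const hAc hbA hsm hlev0 hinf h0A hs)
  have hSre : (S H v).re = 0 := by
    have hmax : IsLocalMax u 0 := by
      filter_upwards [hAc.isOpen_compl.mem_nhds h0A] with s hs
      exact (hconst s hs).le
    have h1 := lev_nonpos_of_max (hsm 0 h0A) hmax (fun _ => 1)
    rw [hlev 0 h0A] at h1
    simp at h1
    linarith
  refine ⟨hSre, fun s hs => ?_⟩
  have hAo : IsOpen A := by
    rw [isOpen_iff_mem_nhds]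
    intro a ha
    filter_upwards [hinf a ha (u 0)] with s hs1
    by_contra hsA
    have := hs1 hsA
    rw [hconst s hsA] at this
    exact lt_irrefl _ this
  have hclopen : IsClopen A := ⟨hAc, hAo⟩
  rcases isClopen_iff.1 hclopen with h | h
  · have h1 : (fun _ => s : Cm 1) ∈ A := by
      show z + s • v ∈ zs E
      exact hs
    rw [h] at h1
    exact h1
  · exact h0A (h ▸ mem_univ _)

end pot

/-- **TP3** from the potential. -/
theorem pot3_of (h : PotStmt) : Pot3Stmt := by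
  intro q Λ E hE hc
  obtain ⟨ψ, H, hper, hL⟩ := h q Λ E hE hc
  obtain ⟨C₀, hb⟩ := psi_bdd hE hL hc hper
  obtain ⟨z₀, hz₀⟩ := exists_off hE 0
  have hHerm : H.IsHermitian := by
    obtain ⟨h1, h2⟩ := psi_smooth hE hL hz₀
    have h3 := Vale.Agent.P272.K.cHess_isHermitian (h1.of_le (show (2 : WithTop ℕ∞) ≤ ∞ by norm_cast))
    rw [h2] at h3
    simpa using h3.neg
  have hpos : ∀ v, 0 ≤ (S H v).re := by
    intro v
    by_contra hcon
    push Not at hcon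
    have := (line_main hE hL hb (v := v) hz₀ hcon.le).1
    linarith
  refine ⟨ψ, H, C₀, hper, hb, ?_, ?_, hL⟩
  · refine Matrix.PosSemidef.of_dotProduct_mulVec_nonneg hHerm fun x => ?_
    have h1 : star x ⬝ᵥ (H.mulVec x) = S H (star x) := by
      simp only [dotProduct, Matrix.mulVec, S, Finset.mul_sum, Pi.star_apply]
      refine Finset.sum_congr rfl fun j _ => Finset.sum_congr rfl fun k _ => ?_
      simp only [RCLike.star_def, Complex.conj_conj]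
      ring
    have h2 : 0 ≤ (star x ⬝ᵥ (H.mulVec x)).re := by rw [h1]; exact hpos _
    have h3 : (star x ⬝ᵥ (H.mulVec x)).im = 0 := hHerm.im_star_dotProduct_mulVec_self x
    rw [Complex.le_def]
    exact ⟨h2, h3.symm⟩
  · intro v hv x hx
    by_contra hcon
    have hS : (S H v).re ≤ 0 := by
      have : S H v = 0 := hv
      rw [this]; simp
    have h1 := (line_main hE hL hb hcon hS).2 (-1)
    apply h1
    simpa using hx

end Vale.Agent.P284.H15.TP3
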